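import Vale.Agent.P004F.Kg.Bc
import Vale.Agent.P004F.Alg.Lam

/-! The row `KG`. -/

namespace Vale.Agent.P004F.Kg
open Matrix PowerSeries Submodule Set Function Module Alg Ch Pat

theorem au_map {R G σ : Type} (O : Type) [CommRing R] [CommRing O] [Algebra R O] [Group G]
    (γ : Gl R G σ) {D : Set G} {v : Fin 2 → R} (h : v ∈ span R {v | ∃ g ∈ D, ∃ i, v = (γ.ρ g - 1) i}) :
    algebraMap R O ∘ v ∈ Au (gm O γ).ρ D :=
  (span_le (p := ((Au (gm O γ).ρ D).restrictScalars R).comap ((Algebra.linearMap R O).compLeft _))).2 (by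
    rintro _ ⟨g, hg, i, rfl⟩
    exact subset_span ⟨g, hg, i, by ext j; simp [gm_ρ, one_apply]⟩) h

theorem r1 {R O G σ K : Type} [CommRing R] [CommRing O] [Algebra R O] [Group G] [Fintype σ]
    [DecidableEq σ] [CommRing K] [IsDomain K] {γ : Gl R G σ} {p : Pk R G σ} (h : p.Ok γ) (c : R →+* K)
    (C : K → R) (hC : ∀ x, c (C x) = x) {ϖ : O} (hd : ∀ a, ϖ ∣ algebraMap R O a ↔ c a = 0)
    (cl : ∀ y : p.I → O, ∃ s, c s ≠ 0 ∧ ∀ i, ∃ a, algebraMap R O a = s • y i)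
    (R1 : ∀ y y' : p.I → K, (p.Mx γ).map c *ᵥ y = 0 → (p.Mx γ).map c *ᵥ y' = 0 →
      ∃ a b : K, ¬ (a = 0 ∧ b = 0) ∧ a • y + b • y' = 0) (g g' : (st O h).W →ₗ[O] O ⧸ Ideal.span {ϖ}) :
    ∃ x y : O, x • g + y • g' = 0 ∧ ¬ (ϖ ∣ x ∧ ϖ ∣ y) := by
  let b : p.I → (st O h).W := fun i => (span O _).mkQ (mk O γ p (Pi.single i 1))
  have L : ∀ g : (st O h).W →ₗ[O] O ⧸ Ideal.span {ϖ}, ∃ (s : R) (a : p.I → R), c s ≠ 0 ∧
      (∀ i, algebraMap R O s • g (b i) = mkQ (R := O) _ (algebraMap R O (a i))) ∧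
      (p.Mx γ).map c *ᵥ (c ∘ a) = 0 := by
    intro g
    choose y hy using fun i => mkQ_surjective _ (g (b i))
    obtain ⟨s, s0, hs⟩ := cl y
    choose a ha using hs
    have k : ∀ i, algebraMap R O s • g (b i) = mkQ (R := O) _ (algebraMap R O (a i)) := fun i => by
      rw [← hy, ← map_smul, ha, algebraMap_smul]
    refine ⟨s, a, s0, k, funext fun i => ?_⟩
    have z : (span O _).mkQ (mk O γ p (p.Mx γ i)) = (0 : (st O h).W) := by
      rcases i with i | _ | j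
      · exact (congrArg _ (mk0 (subset_span ⟨i, rfl⟩))).trans (map_zero _)
      exacts [(Quotient.mk_eq_zero _).2 (subset_span (.inl rfl)),
        (Quotient.mk_eq_zero _).2 (subset_span (.inr ⟨j, rfl⟩))]
    have : ∑ j, algebraMap R O (p.Mx γ i j) • algebraMap R O s • g (b j) = 0 := by
      rw [mk_eq, dec, map_sum] at z
      rw [← smul_zero (algebraMap R O s), ← map_zero g, ← z, map_sum, Finset.smul_sum]
      exact Finset.sum_congr rfl fun j _ => by rw [map_smul, map_smul, smul_comm]; rfl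
    simp only [k] at this
    simp only [← map_smul, ← map_sum] at this
    simp only [mkQ_apply, Quotient.mk_eq_zero, Ideal.mem_span_singleton, smul_eq_mul, ← map_mul,
      ← map_sum, hd] at this
    simp only [map_sum, map_mul] at this
    exact this
  obtain ⟨s, a, a1, a2, a3⟩ := L g
  obtain ⟨s', a', b1, b2, b3⟩ := L g'
  obtain ⟨x, y, c1, c2⟩ := R1 _ _ a3 b3
  refine ⟨algebraMap R O (C x * s), algebraMap R O (C y * s'), LinearMap.ext fun z => ?_, by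
    rw [hd, hd]; simpa [a1, b1, hC] using c1⟩
  obtain ⟨z, rfl⟩ := mkQ_surjective _ z
  obtain ⟨z, rfl⟩ := mkQ_surjective _ z
  rw [dec, map_sum, map_sum]
  refine Finset.sum_eq_zero fun i _ => ?_
  rw [map_smul, map_smul, LinearMap.add_apply, map_mul, map_mul, mul_smul, mul_smul]
  refine smul_eq_zero_of_right _ ((congrArg₂ (algebraMap R O (C x) • · +
    algebraMap R O (C y) • ·) (a2 i) (b2 i)).trans ?_)
  rw [← (mkQ _).map_smul, ← (mkQ _).map_smul, ← map_add, mkQ_apply, Quotient.mk_eq_zero,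
    Ideal.mem_span_singleton, smul_eq_mul, smul_eq_mul, ← map_mul, ← map_mul, ← map_add, hd]
  simpa [hC] using congrFun c2 i

variable (S : Sys) (π : La) [hπ : Fact (Prime π)] (h2 : ¬ π ∣ 2)
include h2

theorem two : IsUnit (2 : Lc π) := map_ofNat (algebraMap La (Lc π)) 2 ▸ (Lc.unit π).2 h2

theorem cb0 : Cb0 (gm (Lc π) S.γ).ρ S.γ.H S.θ := by
  refine ⟨map_mul _, fun g h a => S.nH.conj_mem h a g, fun h a => by simp [gm, S.ρH h a], S.θH,
    eq_top_iff.2 fun B _ => matrix_eq_sum_single B ▸ sum_mem fun i _ => sum_mem fun j _ => ?_⟩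
  have := (span_le (p := ((span (Lc π) (range (gm (Lc π) S.γ).ρ)).restrictScalars La).comap
    (Algebra.linearMap La (Lc π)).mapMatrix)).2 (by rintro _ ⟨g, rfl⟩; exact subset_span ⟨g, rfl⟩)
    (S.spn (single i j 1))
  obtain ⟨w, hw⟩ := ((two π h2).pow S.γ.c).exists_left_inv
  convert smul_mem _ (B i j * w) (show _ ∈ span (Lc π) _ from this) using 1
  simp [map_ofNat, mul_assoc, hw]

theorem cb (h : ¬ π ∣ X) : ∃ τ u u', Cb (gm (Lc π) S.γ).ρ S.γ.H S.θ τ u u' := by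
  obtain ⟨g, a, a', h3, h4, h5⟩ := S.gen
  refine ⟨g, algebraMap La _ a, algebraMap La _ a', cb0 S π h2, ?_, ?_, ?_⟩
  · ext; simp [gm_ρ, h3, one_apply, apply_ite (algebraMap La (Lc π))]
  · ext; simp [gm_ρ, h4, one_apply, apply_ite (algebraMap La (Lc π))]
  · exact map_sub (algebraMap La (Lc π)) a a' ▸ (Lc.unit π).2 fun e =>
      (hπ.1.dvd_or_dvd (h5 π hπ.1 e)).elim h2 h

theorem sy : Sy (gm (Lc π) S.γ) S.θ {q | ∃ p, ∃ h : p ∈ S.𝒮, q = st (Lc π) (S.ok p h)}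
    (st (Lc π) (S.ok _ S.mem)) (algebraMap La _ (S.o.Mx S.γ).det) (algebraMap La _ S.β) where
  cb := cb0 S π h2
  ni := by
    by_cases h : π ∣ X
    · obtain ⟨g, i, j, e⟩ := S.nis
      exact ⟨g, i, j, (map_sub (algebraMap La (Lc π)) _ _ ▸ (Lc.unit π).2 fun e' =>
        e ((hπ.1.associated_of_dvd X_prime h).dvd'.trans e') :)⟩
    · exact (cb S π h2 h).choose_spec.choose_spec.choose_spec.ni
  two := two π h2
  sah := S.sah.imp fun z h => ⟨by ext; simp [gm_ρ, h.1, one_apply], h.2⟩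
  bv := Lc.ne π fun e => S.bv0 (by simp [e])
  av := by
    obtain ⟨A, h3, h4⟩ := S.av
    refine ⟨A.map (algebraMap La _), fun i => au_map _ _ (h3 i), ((two π h2).pow S.γ.c).dvd_mul_left.1 ?_⟩
    have := map_dvd (algebraMap La (Lc π)) h4
    rwa [map_mul, map_pow, map_ofNat, RingHom.map_det] at this
  ap x := by
    obtain ⟨E, h3, h4⟩ := S.ap x
    exact ⟨E.map (algebraMap La _), (RingHom.map_det (algebraMap La (Lc π)) E ▸ h3.map _ :), fun i =>
      (congrArg (· ∈ _) (congrFun (Matrix.map_mul (f := algebraMap La (Lc π))) i)).mp (au_map _ _ (h4 i))⟩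
  be := ⟨S.gs, S.is, S.gv, by
    rw [S.βe, RingHom.map_det]
    congr 1; ext k j
    refine Fin.lastCases ?_ (fun j => ?_) j <;> simp [gm, one_apply, -Fin.reduceLast]⟩
  β0 := Lc.ne π S.β0
  ok := by
    obtain ⟨η, h3, h4⟩ := S.iso π hπ.1 h2
    rintro _ ⟨p, h, rfl⟩
    exact st_ok _ (h4 p h) ((Lc.unit π).2 h3) (two π h2)
  cl := by
    rintro _ ⟨p, h, rfl⟩ a ha
    obtain ⟨q, h', ⟨E⟩⟩ := S.ext p h a ha
    exact ⟨_, ⟨q, h', rfl⟩, st_ex _ _ E⟩
  mem := ⟨_, S.mem, rfl⟩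
  pr := st_pr _
  D0 := Lc.ne π fun e => S.mu (by simp [e])

omit h2 in
theorem sj {N} (h : P004F.Sj π N) : Sj (N.map (algebraMap La (Lc π))) := by
  obtain ⟨N', η, h3, h4⟩ := h
  refine ⟨N'.map (algebraMap La _), _, (Lc.unit π).2 h3, ?_⟩
  rw [← Matrix.map_mul, h4]; ext; simp [one_apply, apply_ite (algebraMap La (Lc π))]

theorem dv (h : ¬ π ∣ X) : algebraMap La (Lc π) (S.o.Mx S.γ).det ∣
    algebraMap La _ (S.o.t ⬝ᵥ S.o.κ ∅) ^ 2 := by
  obtain ⟨τ, u, u', B⟩ := cb S π h2 h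
  have e := st_κ (O := Lc π) (S.ok _ S.mem) ∅ S.o.t
  have h0 := e ▸ Lc.ne π fun e => S.an (by rw [e]; simp)
  rcases S.sep π hπ.1 h2 with s | ⟨-, s, x, ⟨i, j, s1⟩, s2⟩
  · exact e ▸ (sy S π h2).left (Lc.irr π) B h0 fun x => sj π (s x)
  · exact e ▸ (sy S π h2).right (Lc.irr π) B h0 ((Lc.unit π).2 s) (fun y a => sj π (s2 y a))
      ((Lc.unit π).2 s1)

theorem d0 (e : ∀ a, π ∣ a ↔ constantCoeff a = 0) (R : S.Rk1) : constantCoeff (S.o.Mx S.γ).det ≠ 0 := by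
  refine mt (e _).2 ((Lc.unit π).1 ((sy S π h2).one (Lc.irr π) (fun x => sj π (N := S.γ.N x)
    (((S.sep π hπ.1 h2).resolve_right fun a => a.1 ((e _).2 constantCoeff_X)) x)) ((Lc.unit π (a := S.γ.bv)).2 (mt (e _).1 S.bv0))
    (r1 (S.ok _ S.mem) constantCoeff C constantCoeff_C (fun a => ?_) (fun y => ?_) R)))
  · rw [← e, ← not_iff_not, ← Lc.unit π, unit_of (Lc.irr π)]
  · obtain ⟨s, hs⟩ := IsLocalization.exist_integer_multiples_of_finite (Ideal.span {π}).primeCompl y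
    exact ⟨s, fun a => s.2 (Ideal.mem_span_singleton.2 ((e _).2 a)), hs⟩

end Vale.Agent.P004F.Kg

namespace Vale.Agent.P004F
open PowerSeries Alg

theorem kg : KG := fun S R =>
  lam_lc PadicInt.toZMod S.mu (fun π hπ h h' => Kg.dv S π (by
    refine map_ofNat (C (R := ℤ_[2])) 2 ▸ ndvd PadicInt.toZMod two_ne_zero (fun x => ?_) hπ.1 h
    rw [← RingHom.mem_ker, PadicInt.ker_toZMod, PadicInt.maximalIdeal_eq_span_p, Ideal.mem_span_singleton]
    rfl) h') S.an S.la (Kg.d0 S X (hπ := ⟨X_prime⟩)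
      (by simp [X_dvd_iff, map_ofNat]) (fun _ => X_dvd_iff) R)

end Vale.Agent.P004F
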