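import Vale.Agent.P004F.Sys
import Vale.Agent.P004F.Ch.Abs
import Vale.Agent.P004F.Alg.KolB

/-! The Kolyvagin argument for abstract stages with a cocycle. -/

namespace Vale.Agent.P004F.Kg
open Matrix Submodule Set Function Module Alg Ch Alg.Kb

/-- a stage with a cocycle -/
structure St (O G σ : Type) [CommRing O] extends Stg O where
  u : G → Fin 2 → X
  m : σ → Fin 2 → X
  l : σ → Fin 2 ⊕ Fin 2 → X

variable {O G σ : Type} [CommRing O] [Group G]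

abbrev St.N (p : St O G σ) : Submodule O p.X := NN O p.t p.f p.s
abbrev St.W (p : St O G σ) : Type := p.X ⧸ span O (insert p.t (range p.s))

/-- one more prime -/
structure Ex (p q : St O G σ) (g : G) where
  e : Option p.ι ≃ q.ι
  π : q.X →ₗ[O] p.X
  sj : Surjective π
  ker : LinearMap.ker π = span O (range fun i => q.s (e none, i))
  t : π q.t = p.t
  f : ∀ l i, π (q.f (e (some l), i)) = p.f (l, i)
  s : ∀ l i, π (q.s (e (some l), i)) = p.s (l, i)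
  κ : ∀ m, q.κ (m.image fun l => e (some l)) = p.κ m ∘ₗ π
  u : ∀ h i, π (q.u h i) = p.u h i
  new : ∀ i, π (q.f (e none, i)) = p.u g i

namespace Ex
variable {p q : St O G σ} {g : G} (E : Ex p q g)

omit [Group G] in
theorem z (i) : E.π (q.s (E.e none, i)) = 0 :=
  LinearMap.mem_ker.1 (E.ker ▸ subset_span ⟨i, rfl⟩)

omit [Group G] in
theorem bk {N : Submodule O q.X} {N' : Submodule O p.X} (h : N' ≤ N.map E.π) (hs : ∀ j, q.s j ∈ N) :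
    N'.comap E.π ≤ N := by
  refine (comap_mono h).trans ?_
  rw [comap_map_eq, E.ker]
  exact sup_le le_rfl (span_le.2 (by rintro _ ⟨i, rfl⟩; exact hs _))

omit [Group G] in
theorem back {N : Submodule O q.X} (h1 : q.t ∈ N) (h2 : ∀ l i, q.f (E.e (some l), i) ∈ N)
    (h3 : ∀ j, q.s j ∈ N) : p.N.comap E.π ≤ N ∧ p.N ≤ N.map E.π :=
  have : p.N ≤ N.map E.π := NN_le ⟨_, h1, E.t⟩ (fun j => ⟨_, h2 j.1 j.2, E.f _ _⟩) fun j => ⟨_, h3 _, E.s j.1 j.2⟩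
  ⟨E.bk this h3, this⟩

include E in
omit [Group G] in
theorem w : Nonempty (q.W ≃ₗ[O] p.W) := by
  refine ⟨(quotEquivOfEq _ _ (le_antisymm (span_le.2 ?_) ?_)).trans
    (LinearMap.quotKerEquivOfSurjective (mkQ _ ∘ₗ E.π) ((mkQ_surjective _).comp E.sj))⟩
  · rintro _ (rfl | ⟨⟨l, i⟩, rfl⟩) <;> refine (Quotient.mk_eq_zero _).2 ?_
    · exact E.t ▸ subset_span (.inl rfl)
    obtain ⟨_ | l, rfl⟩ := E.e.surjective l
    · exact E.z i ▸ zero_mem _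
    · exact E.s l i ▸ subset_span (.inr ⟨_, rfl⟩)
  · rw [LinearMap.ker_comp, ker_mkQ]
    refine E.bk (span_le.2 ?_) fun j => subset_span (.inr ⟨j, rfl⟩)
    rintro _ (rfl | ⟨j, rfl⟩)
    exacts [⟨_, subset_span (.inl rfl), E.t⟩, ⟨_, subset_span (.inr ⟨_, rfl⟩), E.s j.1 j.2⟩]

omit [Group G] in
theorem int (hg : ∀ i, p.u g i ∈ p.N) (a : O) (h : q.X →ₗ[O] O) (h1 : a ∣ h q.t)
    (h2 : ∀ l i, a ∣ h (q.f (E.e (some l), i))) (h3 : ∀ j, a ∣ h (q.s j)) (i) :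
    a ∣ h (q.f (E.e none, i)) :=
  Ideal.mem_span_singleton.1 ((E.back (N := comap h (Ideal.span {a})) (Ideal.mem_span_singleton.2 h1)
    (fun l i => Ideal.mem_span_singleton.2 (h2 l i)) fun j => Ideal.mem_span_singleton.2 (h3 j)).1
    (show E.π _ ∈ _ from E.new i ▸ hg i))

def ext (hg : ∀ i, p.u g i ∈ p.N) : Ext p.toStg q.toStg :=
  ⟨E.e, E.π, E.t, E.f, E.s, E.z, E.κ, fun a h h1 => E.int hg a h (h1 ▸ dvd_zero a)⟩

include E in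
theorem full {H : Subgroup G} (h : Y O H p.u ≤ p.N) : Y O H q.u ≤ q.N := Y_le.2 fun a ha i =>
  (E.back mt (fun _ _ => mf _) ms).1 (show E.π _ ∈ _ from E.u a i ▸ h (mem_Y _ ha i))

end Ex

/-- closed under extensions -/
def Cl (H : Subgroup G) (θ : G →* G) (𝒮 : Set (St O G σ)) : Prop :=
  ∀ p ∈ 𝒮, ∀ h ∈ H, ∃ q ∈ 𝒮, Nonempty (Ex p q (ko θ h))

variable {A : G → Matrix (Fin 2) (Fin 2) O} {H : Subgroup G} {θ : G →* G} {𝒮 : Set (St O G σ)}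

theorem Cl.sub (h : Cl H θ 𝒮) (P : St O G σ → Prop) (hP : ∀ p q g, Ex p q g → P p → P q) :
    Cl H θ {p ∈ 𝒮 | P p} := fun p hp a ha =>
  let ⟨q, hq, ⟨E⟩⟩ := h p hp.1 a ha
  ⟨q, ⟨hq, hP p q _ E hp.2⟩, ⟨E⟩⟩

theorem Cl.full (h : Cl H θ 𝒮) (B : Cb0 A H θ) (n : Ni A θ) (co : ∀ p ∈ 𝒮, Co A p.u) {o : St O G σ}
    (ho : o ∈ 𝒮) [IsNoetherian O o.X] : ∃ p ∈ 𝒮, Y O H p.u ≤ p.N := by
  obtain ⟨_, ⟨p, hp, ψ, h1, h2, rfl⟩, hm⟩ := set_has_maximal_iff_noetherian.2 ‹_›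
    {N : Submodule O o.X | ∃ p ∈ 𝒮, ∃ ψ : p.X →ₗ[O] o.X, LinearMap.ker ψ ≤ p.N ∧
      (∀ g i, ψ (p.u g i) = o.u g i) ∧ N = p.N.map ψ} ⟨_, o, ho, .id, by simp, by simp, rfl⟩
  refine ⟨p, hp, ((co p hp).ad B).Y_le B n fun a ha i => ?_⟩
  obtain ⟨q, hq, ⟨E⟩⟩ := h p hp a ha
  have b := E.back mt (fun _ _ => mf _) ms
  have e := eq_of_le_of_not_lt ((map_mono b.2).trans (map_comp E.π ψ q.N).ge) (hm _ ⟨q, hq, ψ ∘ₗ E.π,
    (comap_mono h1).trans b.1, fun g i => by simp [E.u, h2], rfl⟩)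
  have : p.u (ko θ a) i ∈ (p.N.map ψ).comap ψ := by
    rw [e]; exact ⟨_, mf (E.e none, i), by simp [E.new]⟩
  rwa [comap_map_eq, sup_eq_left.2 h1] at this

section lin
variable {M : Type} [AddCommGroup M] [Module O M]

theorem dk {n : Type} [Fintype n] [DecidableEq n] {B : Matrix n n O} {y : n → M}
    (h : ∀ i, ∑ j, B i j • y j = 0) (i) : B.det • y i = 0 := by
  have e := congrArg (fun C : Matrix n n O => ∑ j, C i j • y j) (adjugate_mul B)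
  simp only [mul_apply, Finset.sum_smul, mul_smul] at e
  rw [Finset.sum_comm] at e
  simp only [← Finset.smul_sum, h, smul_zero, Finset.sum_const_zero] at e
  simpa [one_apply] using e.symm

/-- the rows of `A g - 1` -/
def Au (A : G → Matrix (Fin 2) (Fin 2) O) (D : Set G) : Submodule O (Fin 2 → O) :=
  span O {v | ∃ g ∈ D, ∃ i, v = (A g - 1) i}

omit [Group G] in
theorem au {D : Set G} {w : Fin 2 → M} (h : ∀ g ∈ D, ∀ i, ∑ j, A g i j • w j - w i = 0) {v}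
    (hv : v ∈ Au A D) : ∑ j, v j • w j = 0 :=
  (span_le (p := LinearMap.ker (Fintype.linearCombination O w))).2 (by
    rintro _ ⟨g, hg, i, rfl⟩
    refine .trans ?_ (h g hg i)
    simp [Fintype.linearCombination_apply, sub_smul, one_apply]) hv

/-- the local condition -/
def Ap (A : G → Matrix (Fin 2) (Fin 2) O) (D : Set G) (N : Matrix (Fin 2) (Fin 2 ⊕ Fin 2) O)
    (E : Matrix (Fin 2) (Fin 2) O) : Prop := IsUnit E.det ∧ ∀ i, (Nᵀ * E) i ∈ Au A D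

omit [Group G] in
theorem Ap.k {D : Set G} {N E} (a : Ap A D N E) {w : Fin 2 → M}
    (h : ∀ g ∈ D, ∀ i, ∑ j, A g i j • w j - w i = 0) (c : Fin 2 ⊕ Fin 2 → O) :
    ∑ i, (N *ᵥ c) i • ∑ j, E i j • w j = 0 := by
  have : ∑ k, c k • ∑ j, (Nᵀ * E) k j • w j = 0 := by simp only [au h (a.2 _), smul_zero, Finset.sum_const_zero]
  rw [← this]
  simp only [mul_apply, mulVec, dotProduct, Fintype.sum_sum_type, Fin.sum_univ_two, transpose_apply]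
  module

/-- surjectivity -/
def Sj (N : Matrix (Fin 2) (Fin 2 ⊕ Fin 2) O) : Prop :=
  ∃ (N' : Matrix (Fin 2 ⊕ Fin 2) (Fin 2) O) (η : O), IsUnit η ∧ N * N' = η • 1

omit [Group G] in
theorem Ap.z {D : Set G} {N E} (a : Ap A D N E) (s : Sj N) {w : Fin 2 → M}
    (h : ∀ g ∈ D, ∀ i, ∑ j, A g i j • w j - w i = 0) (i) : w i = 0 := by
  obtain ⟨N', η, h1, h2⟩ := s
  refine a.1.smul_eq_zero.1 (dk (fun i => h1.smul_eq_zero.1 ?_) i)
  have := a.k h (N' *ᵥ Pi.single i 1)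
  rw [mulVec_mulVec, h2] at this
  fin_cases i <;> simpa using this

/-- the determinant which measures the splitting at `v` -/
def Be (A : G → Matrix (Fin 2) (Fin 2) O) (D : Set G) (e : G → Fin 2 → O) (β : O) : Prop :=
  ∃ (gs : Fin 3 → G) (is : Fin 3 → Fin 2), (∀ k, gs k ∈ D) ∧
    β = det (of fun k => Fin.snoc (α := fun _ => O) ((A (gs k) - 1) (is k)) (e (gs k) (is k)))

omit [Group G] in
theorem Be.k {D : Set G} {e β} (b : Be A D e β) {x : M} {w : Fin 2 → M}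
    (h : ∀ g ∈ D, ∀ i, e g i • x = ∑ j, A g i j • w j - w i) : β • x = 0 ∧ ∀ j, β • w j = 0 := by
  obtain ⟨gs, is, h1, rfl⟩ := b
  have := dk (B := of fun k => Fin.snoc (α := fun _ => O) ((A (gs k) - 1) (is k)) (e (gs k) (is k)))
    (y := Fin.snoc (α := fun _ => M) w (-x)) fun k => by
      rw [Fin.sum_univ_castSucc]
      simp only [of_apply, Fin.snoc_castSucc, Fin.snoc_last, smul_neg, h _ (h1 k)]
      simp [sub_smul, one_apply]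
  exact ⟨by simpa only [Fin.snoc_last, smul_neg, neg_eq_zero] using this (Fin.last 2),
    fun j => by simpa only [Fin.snoc_castSucc] using this j.castSucc⟩

theorem sum2 (i : Fin 2) (F : Fin 2 → M) : ∑ a, F a = F i + F i.rev := by
  fin_cases i <;> simp [add_comm]

theorem piv [IsDomain O] [IsDiscreteValuationRing O] {N : Matrix (Fin 2) (Fin 2 ⊕ Fin 2) O} {i j}
    (h : IsUnit (N i j)) : ∃ (c : Fin 2 → O) (b : O) (r c' : Fin 2 ⊕ Fin 2 → O),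
      c i.rev = 1 ∧ b • r = c ᵥ* N ∧ N *ᵥ c' = Pi.single i.rev b := by
  obtain ⟨v, hv⟩ := h.exists_left_inv
  have n : i.rev ≠ i := by fin_cases i <;> simp
  let c : Fin 2 → O := update 1 i (-N i.rev j * v)
  obtain ⟨k, hk⟩ := Finite.exists_min fun k => IsDiscreteValuationRing.addVal O ((c ᵥ* N) k)
  simp only [IsDiscreteValuationRing.addVal_le_iff_dvd] at hk
  choose r hr using hk
  refine ⟨c, _, r, Pi.single k 1 - (N i k * v) • Pi.single j 1, by simp [c, n],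
    funext fun a => (hr a).symm, funext fun a => ?_⟩
  obtain rfl | rfl : a = i ∨ a = i.rev := by fin_cases a <;> fin_cases i <;> simp
  · simp [mulVec_sub, mulVec_smul, n.symm, mul_assoc, hv]
  · simp [mulVec_sub, mulVec_smul, vecMul, dotProduct, sum2 i, c, n, -Fin.sum_univ_two]; ring

end lin

structure St.Ok (γ : Gl O G σ) (p : St O G σ) : Prop extends p.toStg.Es where
  fin : Module.Finite O p.X
  rk : Fintype.card (p.ι × Fin 2) + 1 ≤ finrank O p.X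
  co : Co γ.ρ p.u
  gen : ∀ N : Submodule O p.X, (∀ g i, p.u g i ∈ N) → p.t ∈ N → (∀ x i, p.m x i ∈ N) → N = ⊤
  lu : ∀ N : Submodule O p.X, (∀ g i, p.u g i ∈ N) → ∀ x k, p.l x k ∈ N
  rel : ∀ x i, ∑ k, γ.N x i k • p.l x k = 0
  sv : ∀ g ∈ γ.Dv, ∀ i, p.u g i = γ.e g i • p.t
  sp : ∀ x, ∀ g ∈ γ.D x, ∀ i, p.u g i = ∑ j, γ.ρ g i j • p.m x j - p.m x i
  fH : ∀ j, p.f j ∈ Y O γ.H p.u
  sH : ∀ j, p.s j ∈ Y O γ.H p.u
  ord : ∀ D : O, D ≠ 0 → Pr p.W D → ∀ x (c : Fin 2 → O) r (b a : O), b • r = c ᵥ* γ.N x →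
    a • ∑ k, r k • p.l x k ∈ span O {p.t} → ∀ i, b ∣ a * c i
  dv : ∀ n, γ.bv ∣ p.κ n p.t

/-- the system over a discrete valuation ring -/
structure Sy (γ : Gl O G σ) (θ : G →* G) (𝒮 : Set (St O G σ)) (o : St O G σ) (D β : O) : Prop where
  cb : Cb0 γ.ρ γ.H θ
  ni : Ni γ.ρ θ
  two : IsUnit (2 : O)
  sah : ∃ z, γ.ρ z = -1 ∧ ∀ g, z * g * z⁻¹ * g⁻¹ ∈ γ.H
  bv : γ.bv ≠ 0
  av : ∃ B : Matrix (Fin 2) (Fin 2) O, (∀ i, B i ∈ Au γ.ρ γ.Dv) ∧ B.det ∣ γ.bv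
  ap : ∀ x, ∃ E, Ap γ.ρ (γ.D x) (γ.N x) E
  be : Be γ.ρ γ.Dv γ.e β
  β0 : β ≠ 0
  ok : ∀ p ∈ 𝒮, p.Ok γ
  cl : Cl γ.H θ 𝒮
  mem : o ∈ 𝒮
  pr : Pr o.W D
  D0 : D ≠ 0

namespace Sy
variable {γ : Gl O G σ} {o p : St O G σ} {D β : O} (S : Sy γ θ 𝒮 o D β)
include S

theorem m0 (h : p.Ok γ) (F : Y O γ.H p.u ≤ p.N) : ∃ w : Fin 2 → p.X ⧸ p.N,
    (∀ g i, p.N.mkQ (p.u g i) = ∑ j, γ.ρ g i j • w j - w i) ∧
    ∀ g ∈ γ.Dv, ∀ i, ∑ j, γ.ρ g i j • w j - w i = 0 := by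
  obtain ⟨z, h1, h2⟩ := S.sah
  obtain ⟨m, hm⟩ := Ch.sah h.co S.cb (u := -1) (by simp [h1]) (by convert S.two.neg using 1; norm_num) h2
  have e : ∀ g i, p.N.mkQ (p.u g i) = ∑ j, γ.ρ g i j • p.N.mkQ (m j) - p.N.mkQ (m i) := fun g i => by
    simpa only [map_sub, map_sum, map_smul, sub_eq_zero] using
      (show p.N.mkQ _ = 0 from (Quotient.mk_eq_zero _).2 (F (hm g i)))
  exact ⟨_, e, fun g hg i => by rw [← e, h.sv g hg]; exact (Quotient.mk_eq_zero _).2 (smul_mem _ _ mt)⟩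

theorem nu (h : p.Ok γ) (F : Y O γ.H p.u ≤ p.N) (s : ∀ x, Sj (γ.N x)) {B : Matrix (Fin 2) (Fin 2) O}
    (hB : ∀ i, B i ∈ Au γ.ρ γ.Dv) : Dt (p.X ⧸ p.N) B.det := by
  obtain ⟨w, h1, h2⟩ := S.m0 h F
  have k : ∀ i, w i ∈ span O (range w) := fun i => subset_span ⟨i, rfl⟩
  refine ⟨_, inferInstance, inferInstance, w, B, ?_, fun i => au h2 (hB i), rfl⟩
  rw [← map_comap_eq_of_surjective p.N.mkQ_surjective (span O (range w)), h.gen (comap _ _)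
    (fun g i => ?_) ?_ fun x i => ?_, Submodule.map_top, range_mkQ] <;> rw [mem_comap]
  · exact (show p.N.mkQ _ = 0 from (Quotient.mk_eq_zero _).2 mt) ▸ zero_mem _
  · exact h1 g i ▸ sub_mem (sum_mem fun j _ => smul_mem _ _ (k j)) (k i)
  · obtain ⟨E, a⟩ := S.ap x
    refine sub_eq_zero.1 (a.z (s x) (w := fun i => p.N.mkQ (p.m x i) - w i) (fun g hg i => ?_) i) ▸ k i
    have := h1 g i
    simp only [h.sp x g hg, map_sub, map_sum, map_smul] at this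
    simp only [smul_sub, Finset.sum_sub_distrib]
    linear_combination (norm := abel) this

theorem sv (h : p.Ok γ) {M : Type} [AddCommGroup M] [Module O M] (κ : p.X →ₗ[O] M)
    (n : ∀ x : M, β • x = 0 → x = 0) (k : κ p.t ≠ 0) : ∃ y ∈ Y O γ.H p.u, κ y ≠ 0 :=
  let ⟨_, h1, h2⟩ := S.sah
  Ch.gen h.co S.cb (u := -1) (by simp [h1]) (by convert S.two.neg using 1; norm_num) h2 h.sv κ
    (fun x _ e => n x (S.be.k e).1) k

variable [IsDomain O] [IsDiscreteValuationRing O] {ϖ : O}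

omit [IsDiscreteValuationRing O] in
theorem nz (h : p.Ok γ) {m} (k : p.κ m p.t ≠ 0 ∨ ∃ j, p.κ m (p.s j) ≠ 0) :
    ∃ y ∈ Y O γ.H p.u, p.κ m y ≠ 0 :=
  k.elim (S.sv h _ fun _ e => (smul_eq_zero.1 e).resolve_left S.β0) fun ⟨j, e⟩ => ⟨_, h.sH j, e⟩

theorem cy (h : p.Ok γ) (F : Y O γ.H p.u ≤ p.N) (P : Pr p.W D) (hβ : IsUnit β) {x i j c b r c'}
    (s : ∀ y, y ≠ x → Sj (γ.N y)) (h0 : IsUnit (γ.N x i j)) (h1 : c (Fin.rev i) = 1)
    (h2 : b • r = c ᵥ* γ.N x) (h3 : γ.N x *ᵥ c' = Pi.single i.rev b) : ∃ η z, Cy p.t p.f p.s b η z := by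
  obtain ⟨w, k1, k2⟩ := S.m0 h F
  have hu : ∀ g i, p.u g i ∈ p.N := fun g i => by
    have := (S.be.k (x := 0) (w := w) fun g hg i => by rw [k2 g hg, smul_zero]).2
    simp only [hβ.smul_eq_zero] at this
    exact (Quotient.mk_eq_zero _).1 ((k1 g i).trans (by simp [this]))
  have q : ∀ N ≥ p.N, ∀ y, ∀ g ∈ γ.D y, ∀ i, ∑ j, γ.ρ g i j • N.mkQ (p.m y j) - N.mkQ (p.m y i) = 0 :=
    fun N hN y g hg i => by
      simpa only [h.sp y g hg, map_sub, map_sum, map_smul] using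
        (show N.mkQ _ = 0 from (Quotient.mk_eq_zero _).2 (hN (hu g i)))
  obtain ⟨E, a⟩ := S.ap x
  refine ⟨∑ k, E i.rev k • p.m x k, ∑ k, r k • p.l x k, h.gen _ (fun g i => mem_sup_left (hu g i))
    (mem_sup_left mt) fun y k => (Quotient.mk_eq_zero _).1 ?_, (Quotient.mk_eq_zero _).1 ?_,
    sum_mem fun k _ => smul_mem _ _ (h.lu _ hu x k), ⟨b, fun e => ?_, ?_⟩,
    fun a e => by simpa [h1] using h.ord D S.D0 P x c r b a h2 e i.rev⟩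
  · by_cases e : y = x
    swap
    · exact (S.ap y).choose_spec.z (s y e) (q _ le_sup_left y) k
    subst e
    set N := p.N ⊔ span O {∑ k, E i.rev k • p.m y k}
    have z : ∑ k, E i.rev k • N.mkQ (p.m y k) = 0 := by
      simpa only [map_sum, map_smul] using (show N.mkQ _ = 0 from
        (Quotient.mk_eq_zero _).2 (mem_sup_right (mem_span_singleton_self _)))
    have := a.k (q N le_sup_left y) (Pi.single j 1)
    rw [sum2 i, z, smul_zero, add_zero, mulVec_single_one, col_apply, h0.smul_eq_zero] at this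
    refine a.1.smul_eq_zero.1 (dk (y := fun k => N.mkQ (p.m y k)) (fun i' => ?_) k)
    obtain rfl | rfl : i' = i ∨ i' = i.rev := by fin_cases i' <;> fin_cases i <;> simp
    exacts [this, z]
  · have := a.k (q _ le_rfl x) c'
    rw [h3] at this
    simpa [Pi.single_apply, -Fin.sum_univ_two, ← mkQ_apply] using this
  · simpa [h1, e] using h.ord D S.D0 P x c 0 b 1 (by rw [← h2, e]; simp) (by simp) i.rev
  · simp only [Finset.smul_sum, ← mul_smul, show ∀ k, b * r k = _ from congrFun h2]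
    simp only [vecMul, dotProduct, Finset.sum_smul, mul_smul]
    rw [Finset.sum_comm]
    simp only [← Finset.smul_sum, h.rel, smul_zero, Finset.sum_const_zero]

theorem red : ∃ 𝒯 : Set (St O G σ), Cl γ.H θ 𝒯 ∧ 𝒯.Nonempty ∧ ∀ p ∈ 𝒯, p.Ok γ ∧ Y O γ.H p.u ≤ p.N ∧
    Nonempty (o.W ≃ₗ[O] p.W) ∧ p.κ ∅ p.t = o.κ ∅ o.t := by
  have c := S.cl.sub (fun p => Nonempty (o.W ≃ₗ[O] p.W) ∧ p.κ ∅ p.t = o.κ ∅ o.t)
    fun p q g E ⟨⟨e⟩, h⟩ => ⟨⟨e.trans E.w.some.symm⟩, by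
      simpa [E.t, h] using LinearMap.congr_fun (E.κ ∅) q.t⟩
  have := (S.ok o S.mem).fin
  obtain ⟨p, h1, h2⟩ := c.full S.cb S.ni (fun p hp => (S.ok p hp.1).co) ⟨S.mem, ⟨.refl _ _⟩, rfl⟩
  exact ⟨_, c.sub (fun p => Y O γ.H p.u ≤ p.N) fun p q g E => E.full, ⟨p, h1, h2⟩,
    fun p hp => ⟨S.ok p hp.1.1, hp.2, hp.1.2⟩⟩

variable (hϖ : Irreducible ϖ)
include hϖ

theorem one (s : ∀ x, Sj (γ.N x)) (hb : IsUnit γ.bv) (R : ∀ g g' : o.W →ₗ[O] O ⧸ Ideal.span {ϖ},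
    ∃ x y : O, x • g + y • g' = 0 ∧ ¬ (ϖ ∣ x ∧ ϖ ∣ y)) : IsUnit D := by
  obtain ⟨𝒯, -, ⟨p, hp⟩, h⟩ := S.red
  obtain ⟨k, F, ⟨e⟩, -⟩ := h p hp
  obtain ⟨B, h1, h2⟩ := S.av
  have u := isUnit_of_dvd_unit h2 hb
  refine isUnit_of_dvd_unit (Alg.fin ⟨k.fin, k.rk, k.iso, ⟨D, .refl _, S.pr.equiv e⟩, S.nu k F s h1⟩
    S.D0 u.ne_zero S.two.ne_zero hϖ fun g g' a1 a2 _ _ a3 a4 => ?_) (u.pow 2)
  simp only [u.mul_right_dvd, mul_comm B.det] at a3 a4 ⊢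
  have L : ∀ g : p.X →ₗ[O] O, g p.t = 0 → (∀ j, ϖ ∣ g (p.s j)) →
      ∃ g' : p.W →ₗ[O] O ⧸ Ideal.span {ϖ}, ∀ z, g' (mkQ _ z) = mkQ _ (g z) := fun g a1 a2 =>
    ⟨liftQ _ (mkQ _ ∘ₗ g) (span_le.2 (by
      rintro _ (rfl | ⟨j, rfl⟩)
      · simp [a1]
      · exact (Quotient.mk_eq_zero _).2 (Ideal.mem_span_singleton.2 (a2 j)))), fun _ => rfl⟩
  obtain ⟨n, hn⟩ := L g a1 a3
  obtain ⟨n', hn'⟩ := L g' a2 a4
  obtain ⟨x, y, b1, b2⟩ := R (n ∘ₗ e.toLinearMap) (n' ∘ₗ e.toLinearMap)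
  refine ⟨x, y, fun j => Ideal.mem_span_singleton.1 ((Quotient.mk_eq_zero _).1 ?_), b2⟩
  have := LinearMap.congr_fun b1 (e.symm (mkQ _ (p.f j)))
  simp only [LinearMap.add_apply, LinearMap.smul_apply, LinearMap.comp_apply, LinearEquiv.coe_coe,
    e.apply_symm_apply, hn, hn'] at this
  exact this

variable {τ : G} {u u' : O} (B : Cb γ.ρ γ.H θ τ u u') (h0 : o.κ ∅ o.t ≠ 0)
include B h0

theorem left (s : ∀ x, Sj (γ.N x)) : D ∣ o.κ ∅ o.t ^ 2 := by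
  obtain ⟨𝒯, c, ⟨p, hp⟩, h⟩ := S.red
  obtain ⟨A, h1, h2⟩ := S.av
  have hb := ne_zero_of_dvd_ne_zero S.bv h2
  rw [← (h p hp).2.2.2] at h0 ⊢
  refine kol (St.toStg '' 𝒯) ?_ S.D0 hb S.two.ne_zero hϖ ?_ ⟨p, hp, rfl⟩ h0
  · rintro _ ⟨p, hp, rfl⟩
    obtain ⟨k, F, ⟨e⟩, -⟩ := h p hp
    exact ⟨⟨k.fin, k.rk, k.iso, ⟨D, .refl _, S.pr.equiv e⟩, S.nu k F s h1⟩, k.ks, k.kf, k.r1, k.r0,
      fun m => h2.trans (k.dv m)⟩
  rintro _ ⟨p, hp, rfl⟩ m g g' g0 g0' a1 a2 a3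
  obtain ⟨k, F, -⟩ := h p hp
  obtain ⟨a, ha, k1⟩ := ch (k.co.ad S.cb) B hb hϖ.prime ((unit_of hϖ).1 S.two) g g' (p.κ m)
    (fun y hy => ⟨dvd_NN (g0 ▸ dvd_zero _) (fun j => (a1 j).1) (fun j => (a1 j).2.1) (F hy),
      dvd_NN (g0' ▸ dvd_zero _) (fun j => (a1 j).2.2.1) (fun j => (a1 j).2.2.2) (F hy)⟩)
    (fun x y e => a2 x y (fun j => e _ (k.fH j)) fun j => e _ (k.sH j)) (S.nz k a3)
  obtain ⟨q, hq, ⟨E⟩⟩ := c p hp a ha
  exact ⟨_, ⟨q, hq, rfl⟩, E.ext fun i => F (mem_Y _ (S.cb.ko_mem ha) i),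
    by simpa only [Ex.ext, E.new] using k1⟩

theorem right (hβ : IsUnit β) {x i j} (s : ∀ y, y ≠ x → Sj (γ.N y)) (h1 : IsUnit (γ.N x i j)) :
    D ∣ o.κ ∅ o.t ^ 2 := by
  obtain ⟨𝒯, c, ⟨p, hp⟩, h⟩ := S.red
  obtain ⟨c0, b, r, c', b1, b2, b3⟩ := piv h1
  have hb : b ≠ 0 := fun e => by
    simpa [b1, e] using (S.ok o S.mem).ord D S.D0 S.pr x c0 0 b 1 (by rw [← b2, e]; simp) (by simp) i.rev
  rw [← (h p hp).2.2.2] at h0 ⊢
  refine kolB (St.toStg '' 𝒯) ?_ S.D0 hb S.two hϖ ?_ ⟨p, hp, rfl⟩ h0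
  · rintro _ ⟨p, hp, rfl⟩
    obtain ⟨k, F, ⟨e⟩, -⟩ := h p hp
    exact ⟨k.toEs, k.fin, k.rk, ⟨D, .refl _, S.pr.equiv e⟩, S.cy k F (S.pr.equiv e) hβ s h1 b1 b2 b3⟩
  rintro _ ⟨p, hp, rfl⟩ m g g' a1 a2 a3
  obtain ⟨k, F, -⟩ := h p hp
  have t : p.t ∈ Y O γ.H p.u := by
    by_contra e
    obtain ⟨y, hy, e⟩ := S.sv k (mkQ _) (fun _ => hβ.smul_eq_zero.1) (mt (Quotient.mk_eq_zero _).1 e)
    exact e ((Quotient.mk_eq_zero _).2 hy)
  obtain ⟨a, ha, k1⟩ := chB (k.co.ad S.cb) B hb hϖ.prime ((unit_of hϖ).1 S.two) g g' (p.κ m)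
    (fun y hy => a1 y (F hy)) (fun x y e => a2 x y fun z hz => e z (NN_le t k.fH k.sH hz)) (S.nz k a3)
  obtain ⟨q, hq, ⟨E⟩⟩ := c p hp a ha
  have n := fun i => F (mem_Y _ (S.cb.ko_mem ha) i)
  exact ⟨_, ⟨q, hq, rfl⟩, E.ext n, E.int n, by simpa only [Ex.ext, E.new] using k1⟩

end Sy

end Vale.Agent.P004F.Kg
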