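import Vale.Agent.P004F.Kg.Abs

/-! Base change of a stage given by matrices. -/

namespace Vale.Agent.P004F.Kg
open Matrix Submodule Set Function Module Alg Ch

variable {R G σ : Type} (O : Type) [CommRing R] [CommRing O] [Algebra R O] [Group G] [Fintype σ]
  [DecidableEq σ] (γ : Gl R G σ) (p q : Pk R G σ)

def gm : Gl O G σ :=
  ⟨(algebraMap R O).mapMatrix.toMonoidHom.comp γ.ρ, γ.H, γ.Dv, fun g i => algebraMap R O (γ.e g i), γ.D,
    fun x => (γ.N x).map (algebraMap R O), algebraMap R O γ.bv, γ.c⟩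

omit [Fintype σ] [DecidableEq σ] in
theorem gm_ρ (g i j) : (gm O γ).ρ g i j = algebraMap R O (γ.ρ g i j) := rfl

/-- the relations after base change -/
abbrev Ro : Submodule O (p.I → O) := span O (range fun i => algebraMap R O ∘ p.Rm γ i)

abbrev Xp : Type := (p.I → O) ⧸ Ro O γ p

def mk : (p.I → R) →ₗ[R] Xp O γ p :=
  (mkQ _).restrictScalars R ∘ₗ (Algebra.linearMap R O).compLeft p.I

variable {O γ p q}

omit [Fintype σ] [DecidableEq σ] in
theorem mk_eq (v) : mk O γ p v = mkQ _ (algebraMap R O ∘ v) := rfl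

omit [Fintype σ] [DecidableEq σ] in
theorem mk0 {v} (h : v ∈ p.Rl γ) : mk O γ p v = 0 :=
  (span_le (p := LinearMap.ker (mk O γ p))).2 (by
    rintro _ ⟨i, rfl⟩; exact (Quotient.mk_eq_zero _).2 (subset_span ⟨i, rfl⟩)) h

omit [Fintype σ] [DecidableEq σ] in
theorem mk1 {v w} (h : v - w ∈ p.Rl γ) : mk O γ p v = mk O γ p w := by
  rw [← sub_eq_zero, ← map_sub, mk0 h]

omit [Fintype σ] [DecidableEq σ] in
theorem mkU {Z : Set G} {N : Submodule O (Xp O γ p)} (h : ∀ g ∈ Z, ∀ i, mk O γ p (p.u g i) ∈ N) :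
    p.Us γ Z ≤ (N.restrictScalars R).comap (mk O γ p) :=
  sup_le (span_le.2 (by rintro _ ⟨g, hg, i, rfl⟩; exact h g hg i)) fun v hv => by simp [mk0 hv]

theorem dec (w : p.I → O) : mkQ (Ro O γ p) w = ∑ i, w i • mk O γ p (Pi.single i 1) := by
  conv_lhs => rw [pi_eq_sum_univ' w, map_sum]
  refine Finset.sum_congr rfl fun i _ => ?_
  rw [map_smul, mk_eq]; congr 2; ext j; simp [Pi.single_apply]

theorem ind {N : Submodule O (Xp O γ p)} (h : ∀ v, mk O γ p v ∈ N) : N = ⊤ := eq_top_iff.2 fun z _ => by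
  obtain ⟨w, rfl⟩ := mkQ_surjective _ z
  exact dec w ▸ sum_mem fun i _ => smul_mem _ _ (h _)

section
variable {M : Type} [AddCommGroup M] [Module O M] [Module R M] [IsScalarTower R O M]

omit [DecidableEq σ] in
theorem lc {I : Type} [Fintype I] [DecidableEq I] (g : (I → R) →ₗ[R] M) (v : I → R) :
    Fintype.linearCombination O (fun i => g (Pi.single i 1)) (algebraMap R O ∘ v) = g v := by
  conv_rhs => rw [pi_eq_sum_univ' v, map_sum]
  simp [Fintype.linearCombination_apply]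

variable (O) in
def lift (g : (p.I → R) →ₗ[R] M) (h : ∀ i, g (p.Rm γ i) = 0) : Xp O γ p →ₗ[O] M :=
  liftQ _ (Fintype.linearCombination O fun i => g (Pi.single i 1))
    (span_le.2 (by rintro _ ⟨i, rfl⟩; exact (lc g _).trans (h i)))

theorem lift_mk (g : (p.I → R) →ₗ[R] M) (h v) : lift O g h (mk O γ p v) = g v := lc g v

end

variable (O) in
abbrev st (h : p.Ok γ) : St O G σ where
  ι := p.ι
  X := Xp O γ p
  f j := mk O γ p (p.f j)
  s j := mk O γ p (p.s j)
  t := mk O γ p p.t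
  κ n := lift O (Algebra.linearMap R O ∘ₗ (dotProductBilin R R).flip (p.κ n)) fun i =>
    (congrArg (algebraMap R O) (congrFun (h.kr n) i)).trans (map_zero _)
  u g i := mk O γ p (p.u g i)
  m x i := mk O γ p (p.m x i)
  l x i := mk O γ p (p.l x i)

variable (h : p.Ok γ)

theorem st_κ (n v) : (st O h).κ n (mk O γ p v) = algebraMap R O (v ⬝ᵥ p.κ n) := lc _ v

theorem st_w : Nonempty (((p.I → O) ⧸ span O (range fun i => algebraMap R O ∘ p.Mx γ i)) ≃ₗ[O]
    (st O h).W) := by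
  have l : Ro O γ p ≤ span O (range fun i => algebraMap R O ∘ p.Mx γ i) :=
    span_mono (by rintro _ ⟨i, rfl⟩; exact ⟨.inl i, rfl⟩)
  refine ⟨(quotientQuotientEquivQuotient _ _ l).symm.trans (quotEquivOfEq _ _ ?_)⟩
  rw [map_span]
  refine le_antisymm (span_le.2 ?_) (span_mono ?_)
  · rintro _ ⟨_, ⟨i | _ | j, rfl⟩, rfl⟩
    · exact (show mkQ _ _ = 0 from mk0 (O := O) (p := p) (subset_span ⟨i, rfl⟩)).symm ▸ zero_mem _
    exacts [subset_span (.inl rfl), subset_span (.inr ⟨j, rfl⟩)]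
  · rintro _ (rfl | ⟨j, rfl⟩)
    exacts [⟨_, ⟨.inr none, rfl⟩, rfl⟩, ⟨_, ⟨.inr (some j), rfl⟩, rfl⟩]

theorem st_pr : Pr (st O h).W (algebraMap R O (p.Mx γ).det) := by
  have := (pr_free (Pi.basisFun O p.I) fun i => algebraMap R O ∘ p.Mx γ i).equiv (st_w h).some
  rw [Pi.basisFun_det_apply] at this
  exact RingHom.map_det (algebraMap R O) (p.Mx γ) ▸ this

theorem st_iso {η : R} (i : p.Iso γ η) (hη : IsUnit (algebraMap R O η)) :
    Iso O (st O h).t (st O h).f (st O h).s := fun M _ _ β h1 h2 => by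
  obtain ⟨Z, Z', e⟩ := i
  let Ψ : Matrix p.I p.I R →+ M := AddMonoidHom.mk' (fun C => ∑ a, ∑ b, algebraMap R O (C a b) •
    β (mk O γ p (Pi.single a 1)) (mk O γ p (Pi.single b 1))) fun _ _ => by
      simp [add_smul, Finset.sum_add_distrib]
  have k : ∀ v w, Ψ (vecMulVec v w) = β (mk O γ p v) (mk O γ p w) := fun v w => by
    rw [mk_eq v, mk_eq w, dec, dec]
    simp only [Ψ, AddMonoidHom.mk'_apply, vecMulVec_apply, map_mul, mul_smul, map_sum, map_smul,
      LinearMap.sum_apply, LinearMap.smul_apply, Finset.smul_sum, Function.comp_apply]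
    rw [Finset.sum_comm]
    exact Finset.sum_congr rfl fun _ _ => Finset.sum_congr rfl fun _ _ => smul_comm _ _ _
  have k1 : ∀ P Z : Matrix (Option (Fin p.r ⊕ σ × Fin 2)) p.I R, Pᵀ * Z = ∑ o, vecMulVec (P o) (Z o) :=
    fun P Z => by ext; simp [mul_apply, vecMulVec_apply, Matrix.sum_apply]
  have k2 : ∀ C, Ψ (η • C) = algebraMap R O η • Ψ C := fun C => by
    simp [Ψ, Finset.smul_sum, mul_smul]
  have := congrArg Ψ e
  simp only [k1, k2, map_add, map_sum, k] at this
  refine hη.smul_eq_zero.1 (this.trans ?_)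
  rw [Finset.sum_eq_zero, Finset.sum_eq_zero, add_zero] <;> rintro (_ | i) -
  · exact h2 _
  · exact (congrArg _ (mk0 (subset_span ⟨i, rfl⟩))).trans (map_zero _)
  · exact LinearMap.congr_fun h1 _
  · exact (congrArg (β · _) (mk0 (subset_span ⟨i, rfl⟩))).trans (β.map_zero₂ _)

omit [Fintype σ] [DecidableEq σ] in
theorem mk_vm {n : Type} [Fintype n] (c : n → R) (B : Matrix n p.I R) :
    mk O γ p (c ᵥ* B) = ∑ k, algebraMap R O (c k) • mk O γ p (B k) := by
  rw [vecMul_eq_sum, map_sum]; simp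

theorem st_ok [IsDomain O] {η : R} (i : p.Iso γ η) (hη : IsUnit (algebraMap R O η))
    (h2 : IsUnit (2 : O)) : (st O h).Ok (gm O γ) where
  iso := st_iso h i hη
  ks n l i e := (st_κ h ..).trans (by rw [h.ks n l i e, map_zero])
  kf n l i e := (st_κ h ..).trans (by rw [h.kf n l i e, map_zero])
  r1 n l e := (st_κ h ..).trans ((congrArg _ (h.r1 n l e)).trans (st_κ h ..).symm)
  r0 n l e := (st_κ h ..).trans (((congrArg _ (h.r0 n l e)).trans (map_neg _ _)).trans
    (congrArg _ (st_κ h ..).symm))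
  fin := inferInstanceAs (Module.Finite O (Xp O γ p))
  rk := by
    have a := (Ro O γ p).finrank_quotient_add_finrank
    have b : finrank O (Ro O γ p) ≤ _ := finrank_range_le_card _
    rw [finrank_fintype_fun_eq_card, Fintype.card_sum, Fintype.card_option] at a
    show Fintype.card (p.ι × Fin 2) + 1 ≤ finrank O (Xp O γ p)
    unfold Xp; omega
  co a b := funext fun i => by
    have := mk0 (O := O) (h.coc a b i)
    rw [show (p.u (a * b) - p.u a - γ.ρ a * p.u b) i = p.u (a * b) i - p.u a i - γ.ρ a i ᵥ* p.u b from rfl,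
      map_sub, map_sub, mk_vm, sub_sub, sub_eq_zero] at this
    exact this
  gen N a b c := ind fun v => (sup_le (mkU fun g _ => a g) (span_le.2 (by
    rintro _ (rfl | ⟨x, i, rfl⟩); exacts [b, c x i])) : _ ≤ comap _ _) (h.gen ▸ mem_top)
  lu N a x k := mkU (fun g _ => a g) (h.lu x k)
  rel x i := (mk_vm (γ.N x i) (p.l x)).symm.trans (mk0 (subset_span ⟨.inr (x, i), rfl⟩))
  sv g a i := (mk1 (h.sv g a i)).trans (by rw [map_smul, ← algebraMap_smul O]; rfl)
  sp x g a i := (mk1 (h.sp x g a i)).trans (by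
    rw [show (γ.ρ g - 1) i = γ.ρ g i - Pi.single i 1 by ext j; simp [one_apply, Pi.single_apply, eq_comm],
      sub_vecMul, map_sub, mk_vm, single_one_vecMul]; rfl)
  fH j := mkU (fun g a i => mem_Y (st O h).u a i) (h.fH j)
  sH j := mkU (fun g a i => mem_Y (st O h).u a i) (h.sH j)
  ord D h0 P x c r b a e1 e2 i := by
    obtain ⟨c', e3⟩ := mem_span_singleton.1 e2
    have e4 : a • r ᵥ* (p.l x).map (algebraMap R O) - c' • algebraMap R O ∘ p.t ∈ Ro O γ p := by
      rw [← Quotient.mk_eq_zero, ← mkQ_apply, map_sub, sub_eq_zero, map_smul, map_smul, vecMul_eq_sum,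
        map_sum]
      simp only [map_smul]
      exact e3.symm
    obtain ⟨w, hw⟩ := (mem_span_range_iff_exists_fun O).1 e4
    have d : ((p.Mx γ).map (algebraMap R O)).det ≠ 0 := fun e => ne_zero_of_dvd_ne_zero h0
      ((st_pr h).dvd P.dt) ((RingHom.map_det _ _).trans e)
    have := eq_zero_of_vecMul_eq_zero d (v := b • Sum.elim w (fun o => o.elim c' 0) -
      a • ∑ j, c j • Pi.single (.inl (.inr (x, j))) 1) (by
        have e5 : ∀ j, Pi.single (.inl (.inr (x, j))) 1 ᵥ* (p.Mx γ).map (algebraMap R O) =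
            ((gm O γ).N x * (p.l x).map (algebraMap R O)) j := fun j => by
          rw [single_one_vecMul]; exact congrFun (Matrix.map_mul (L := γ.N x) (M := p.l x)) j
        have e6 : Sum.elim w (fun o => o.elim c' 0) ᵥ* (p.Mx γ).map (algebraMap R O) =
            a • r ᵥ* (p.l x).map (algebraMap R O) := by
          rw [vecMul_eq_sum, Fintype.sum_sum_type, Fintype.sum_option, ← sub_add_cancel (a • _) _, ← hw]
          simp only [Sum.elim_inl, Sum.elim_inr, Option.elim_none, Option.elim_some, Pi.zero_apply,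
            zero_smul, Finset.sum_const_zero, add_zero]
          rfl
        rw [sub_vecMul, smul_vecMul, smul_vecMul, sum_vecMul, e6]
        simp only [smul_vecMul, e5]
        rw [← vecMul_eq_sum, ← vecMul_vecMul, ← e1, smul_vecMul, smul_comm, sub_self])
    have := congrFun this (.inl (.inr (x, i)))
    exact ⟨w (.inr (x, i)), (sub_eq_zero.1 (by
      simpa [Pi.single_apply, Finset.sum_apply, -Fin.sum_univ_two] using this)).symm⟩
  dv n := (h2.pow γ.c).dvd_mul_left.1 (by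
    have := map_dvd (algebraMap R O) (h.dv n)
    rwa [map_mul, map_pow, map_ofNat, ← st_κ h] at this)

theorem st_ex (h' : q.Ok γ) {g : G} (E : p.Ext γ q g) : Nonempty (Ex (st O h) (st O h') g) := by
  let ψ := (p.Rl γ).mkQ ∘ₗ E.A.vecMulLinear
  have sj : Surjective ψ := by
    have k : ∀ {v w}, v ᵥ* E.A - w ∈ p.Rl γ → w ∈ (LinearMap.range ψ).comap (mkQ _) := fun {v w} e =>
      ⟨v, (Submodule.Quotient.eq _).2 e⟩
    have : ⊤ ≤ (LinearMap.range ψ).comap (mkQ _) := h.gen ▸ sup_le (sup_le (span_le.2 (by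
      rintro _ ⟨a, -, i, rfl⟩; exact k (E.u a i))) fun v hv => k (v := 0) (by simpa using hv))
      (span_le.2 (by rintro _ (rfl | ⟨x, i, rfl⟩); exacts [k E.t, k (E.m x i)]))
    intro z
    obtain ⟨z, rfl⟩ := mkQ_surjective _ z
    exact this mem_top
  let π : Xp O γ q →ₗ[O] Xp O γ p := lift O (mk O γ p ∘ₗ E.A.vecMulLinear) fun i =>
    mk0 ((E.ker _).2 (mem_sup_left (subset_span ⟨i, rfl⟩)))
  have hπ : ∀ v, π (mk O γ q v) = mk O γ p (v ᵥ* E.A) := lift_mk _ _
  let S := span O (range fun i => mk O γ q (q.s (E.e none, i)))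
  let j : Xp O γ p →ₗ[O] Xp O γ q ⧸ S := lift O ((LinearMap.ker ψ).liftQ
    (S.mkQ.restrictScalars R ∘ₗ mk O γ q) (fun v hv => (Quotient.mk_eq_zero _).2 ((sup_le
      (fun v hv => by simp [mk0 hv]) (span_le.2 (by rintro _ ⟨i, rfl⟩; exact subset_span ⟨i, rfl⟩)) :
      _ ≤ (S.restrictScalars R).comap (mk O γ q)) ((E.ker v).1 ((Quotient.mk_eq_zero _).1 hv)))) ∘ₗ
    (ψ.quotKerEquivOfSurjective sj).symm.toLinearMap ∘ₗ mkQ _) fun i => by
      simp [(Quotient.mk_eq_zero (p.Rl γ)).2 (subset_span ⟨i, rfl⟩)]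
  have hj : LinearMap.ker (j ∘ₗ π - S.mkQ) = ⊤ := ind fun v => sub_eq_zero.2 (by
    rw [LinearMap.comp_apply, hπ, lift_mk]
    exact (congrArg _ (ψ.quotKerEquivOfSurjective_symm_apply sj v)).trans rfl)
  refine ⟨⟨E.e, π, LinearMap.range_eq_top.1 (ind fun v => ?_), le_antisymm (fun z hz => ?_)
    (span_le.2 ?_), (hπ _).trans (mk1 E.t), fun l i => (hπ _).trans (mk1 (E.f l i)),
    fun l i => (hπ _).trans (mk1 (E.s l i)), fun n => ?_, fun a i => (hπ _).trans (mk1 (E.u a i)),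
    fun i => (hπ _).trans (mk1 (E.new i))⟩⟩
  · obtain ⟨w, hw⟩ := sj (mkQ _ v)
    exact ⟨_, (hπ w).trans (mk1 ((Submodule.Quotient.eq _).1 hw))⟩
  · have : j (π z) - S.mkQ z = 0 := (hj ▸ mem_top : z ∈ LinearMap.ker (j ∘ₗ π - S.mkQ))
    rw [show π z = 0 from hz, map_zero, zero_sub, neg_eq_zero] at this
    exact (Quotient.mk_eq_zero _).1 this
  · rintro _ ⟨i, rfl⟩
    exact (hπ _).trans (mk0 ((E.ker _).2 (mem_sup_right (subset_span ⟨i, rfl⟩))))
  · refine sub_eq_zero.1 (LinearMap.ker_eq_top.1 (ind fun v => sub_eq_zero.2 ((st_κ h' ..).trans ?_)))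
    rw [E.κ, dotProduct_mulVec, ← st_κ h, ← hπ]; rfl

end Vale.Agent.P004F.Kg
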