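import Vale.Agent.P004F.Sys
import Vale.Agent.P004F.Alg.Cyc

/-! # P004F, row `KG`: the cyclic defect at the one place where `N` is not surjective -/

set_option linter.all false

open Matrix Submodule
open Set hiding diagonal

noncomputable section

namespace Vale.Agent.P004F.Kg.Cb

open Alg

variable {O : Type} [CommRing O] [IsDomain O] [IsDiscreteValuationRing O]

theorem ex_gcd {K : Type} [Fintype K] [Nonempty K] (v : K → O) : ∃ k, ∀ j, v k ∣ v j := by
  obtain ⟨k, -, hk⟩ := Finset.exists_min_image Finset.univ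
    (fun j => IsDiscreteValuationRing.addVal O (v j)) Finset.univ_nonempty
  exact ⟨k, fun j => IsDiscreteValuationRing.addVal_le_iff_dvd.1 (hk j (Finset.mem_univ j))⟩

/-- Smith form of a matrix with two rows and a unit entry -/
theorem smith {K : Type} [Fintype K] [DecidableEq K] (N : Matrix (Fin 2) K O)
    (h : ∃ i j, IsUnit (N i j)) : ∃ (U : Matrix (Fin 2) (Fin 2) O) (b : O) (N' : Matrix (Fin 2) K O),
    IsUnit U.det ∧ N = U * diagonal ![1, b] * N' ∧ (b ≠ 0 → ∃ P : Matrix K (Fin 2) O, N' * P = 1) := by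
  obtain ⟨i, j, hu⟩ := h
  obtain ⟨c, hc⟩ := hu.exists_left_inv
  have : Nonempty K := ⟨j⟩
  obtain ⟨k, hk⟩ := ex_gcd fun k => N i.rev k - N i.rev j * c * N i k
  choose w hw using hk
  set b := N i.rev k - N i.rev j * c * N i k
  refine ⟨.of fun a e => if a = i then ![1, 0] e else ![N i.rev j * c, 1] e, b, .of ![N i, w], ?_, ?_,
    fun hb => ?_⟩
  · fin_cases i <;> simp [det_fin_two]
  · ext a e
    have := hw e
    fin_cases i <;> fin_cases a <;> simp [mul_apply, diagonal, Fin.sum_univ_two] at this ⊢ <;>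
      linear_combination this
  · have h1 : w k = 1 := mul_left_cancel₀ hb (by rw [← hw k, mul_one])
    have h2 : w j = 0 := mul_left_cancel₀ hb (by
      rw [← hw j, mul_zero, mul_assoc, hc, mul_one, sub_self])
    refine ⟨.of fun e => ![Pi.single (M := fun _ => O) j c e,
      Pi.single (M := fun _ => O) k 1 e - Pi.single (M := fun _ => O) j (c * N i k) e], ?_⟩
    ext a e
    fin_cases a <;> fin_cases e <;>
      simp [mul_apply, mul_sub, Pi.single_apply, h1, h2, mul_comm (N i j) c, hc]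
    linear_combination (-N i k) * hc

variable {G σ : Type} [Group G] [Fintype σ] [DecidableEq σ] {γ : Gl O G σ}

/-- the rows of `ρ g - 1` -/
def Av (γ : Gl O G σ) (D : Set G) : Submodule O (Fin 2 → O) :=
  span O {v | ∃ g ∈ D, ∃ i, v = (γ.ρ g - 1) i}

variable {p : Pk O G σ} {L : Submodule O (p.I → O)}

theorem av_mem {x : σ} (hR : p.Rl γ ≤ L) (hu : ∀ g i, p.u g i ∈ L)
    (sp : ∀ g ∈ γ.D x, ∀ i, p.u g i - (γ.ρ g - 1) i ᵥ* p.m x ∈ p.Rl γ) {v} (hv : v ∈ Av γ (γ.D x)) :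
    v ᵥ* p.m x ∈ L := by
  refine (span_le.2 ?_ : Av γ (γ.D x) ≤ comap (p.m x).vecMulLinear L) hv
  rintro _ ⟨g, hg, i, rfl⟩
  have := sub_mem (hu g i) (hR (sp g hg i))
  rw [sub_sub_cancel] at this
  exact this

theorem row_mem {x : σ} (hR : p.Rl γ ≤ L) (hu : ∀ g i, p.u g i ∈ L)
    (sp : ∀ g ∈ γ.D x, ∀ i, p.u g i - (γ.ρ g - 1) i ᵥ* p.m x ∈ p.Rl γ)
    {E : Matrix (Fin 2) (Fin 2) O} (hE : ∀ i, ((γ.N x)ᵀ * E) i ∈ Av γ (γ.D x))
    (w : Fin 2 ⊕ Fin 2 → O) : w ᵥ* ((γ.N x)ᵀ * E * p.m x) ∈ L := by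
  rw [← vecMul_vecMul]
  refine av_mem hR hu sp ?_
  rw [vecMul_eq_sum]
  exact sum_mem fun i _ => smul_mem _ _ (hE i)

/-- **the cyclic defect** -/
theorem cy (x : σ) (hx : ∃ i j, IsUnit (γ.N x i j)) (hy : ∀ y, y ≠ x → ∃ N' : Matrix (Fin 2 ⊕ Fin 2) (Fin 2) O, γ.N y * N' = 1)
    (ap : ∀ y, ∃ E : Matrix (Fin 2) (Fin 2) O, IsUnit E.det ∧
      ∀ i, ((γ.N y)ᵀ * E) i ∈ Av γ (γ.D y)) :
    ∃ b : O, ∀ p : Pk O G σ, (p.Mx γ).det ≠ 0 →
      p.Us γ univ ⊔ span O (insert p.t {v | ∃ x i, v = p.m x i}) = ⊤ →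
      (∀ i, p.l x i ∈ p.Us γ univ) →
      (∀ y, ∀ g ∈ γ.D y, ∀ i, p.u g i - (γ.ρ g - 1) i ᵥ* p.m y ∈ p.Rl γ) →
      (∀ g i, (p.Rl γ).mkQ (p.u g i) ∈ NN O ((p.Rl γ).mkQ p.t) (fun j => (p.Rl γ).mkQ (p.f j))
        fun j => (p.Rl γ).mkQ (p.s j)) →
      b ≠ 0 ∧ ∃ η z, Cy ((p.Rl γ).mkQ p.t) (fun j => (p.Rl γ).mkQ (p.f j))
        (fun j => (p.Rl γ).mkQ (p.s j)) b η z := by
  obtain ⟨U, b, N', hU, hN, hP⟩ := smith _ hx
  refine ⟨b, fun p hD gen lu sp hu => ?_⟩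
  have inj : ∀ v, v ᵥ* p.Mx γ = 0 → v = 0 := fun v => eq_zero_of_vecMul_eq_zero hD
  -- the row `w ᵥ* (N x * l x)` as a combination of the rows of `Mx`
  let ex : (Fin 2 → O) → p.I → O := fun w => Sum.elim (Sum.elim 0 fun y => if y.1 = x then w y.2 else 0) 0
  have hex : ∀ w, ex w ᵥ* p.Mx γ = w ᵥ* (γ.N x * p.l x) := fun w => by
    ext j
    simp [ex, vecMul, dotProduct, Pk.Mx, Pk.Rm, Fintype.sum_prod_type, Finset.sum_ite_eq, ite_mul]
    rfl
  obtain ⟨w, hwU⟩ : ∃ w : Fin 2 → O, w ᵥ* U = Pi.single 1 1 :=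
    ⟨Pi.single 1 1 ᵥ* U⁻¹, by rw [vecMul_vecMul, nonsing_inv_mul _ hU, vecMul_one]⟩
  have hw : w ᵥ* (γ.N x * p.l x) = b • (N' * p.l x) 1 := by
    rw [hN, Matrix.mul_assoc, Matrix.mul_assoc, ← vecMul_vecMul, hwU, ← vecMul_vecMul]
    ext j
    simp [vecMul, dotProduct, diagonal, Fin.sum_univ_two]
  have key : ∀ a : O, (∀ i, b ∣ a * w i) → b ∣ a := fun a h => by
    have := congrFun hwU 1
    simp only [vecMul, dotProduct, Fin.sum_univ_two, Pi.single_eq_same] at this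
    have e : a = a * w 0 * U 0 1 + a * w 1 * U 1 1 := by linear_combination (-a) * this
    rw [e]
    exact dvd_add ((h 0).mul_right _) ((h 1).mul_right _)
  have hb : b ≠ 0 := fun e => by
    have := inj (ex w) (by rw [hex, hw, e, zero_smul])
    refine one_ne_zero (zero_dvd_iff.1 (e ▸ key 1 fun i => ?_))
    have := congrFun this (.inl (.inr (x, i)))
    simp [ex] at this
    simp [this]
  obtain ⟨P, hP⟩ := hP hb
  obtain ⟨E, hE, hE'⟩ := ap x
  set Z := NN O ((p.Rl γ).mkQ p.t) (fun j => (p.Rl γ).mkQ (p.f j)) fun j => (p.Rl γ).mkQ (p.s j)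
  have hR : p.Rl γ ≤ comap (p.Rl γ).mkQ Z := fun v hv => by
    rw [mem_comap, mkQ_apply, (Quotient.mk_eq_zero _).2 hv]
    exact zero_mem _
  have hUs : p.Us γ univ ≤ comap (p.Rl γ).mkQ Z :=
    sup_le (span_le.2 (by rintro _ ⟨g, -, i, rfl⟩; exact hu g i)) hR
  have hm : ∀ i, (diagonal ![1, b] * (Uᵀ * E * p.m x)) i ∈ comap (p.Rl γ).mkQ Z := fun i => by
    have := row_mem hR hu (sp x) hE' (Pᵀ i)
    rwa [← mul_apply_eq_vecMul, hN, transpose_mul, transpose_mul, diagonal_transpose,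
      Matrix.mul_assoc N'ᵀ, Matrix.mul_assoc N'ᵀ, ← Matrix.mul_assoc Pᵀ, ← transpose_mul, hP,
      transpose_one, Matrix.one_mul, Matrix.mul_assoc _ Uᵀ, Matrix.mul_assoc (diagonal _)] at this
  set m' := Uᵀ * E * p.m x with hm'
  have h0 : m' 0 ∈ comap (p.Rl γ).mkQ Z := by
    convert hm 0 using 1
    ext j
    simp
  have h1 : b • m' 1 ∈ comap (p.Rl γ).mkQ Z := by
    convert hm 1 using 1
    ext j
    simp
  refine ⟨hb, (p.Rl γ).mkQ (m' 1), (p.Rl γ).mkQ ((N' * p.l x) 1), ?_, ?_, ?_, ⟨b, hb, ?_⟩,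
    fun a ha => key a fun i => ?_⟩
  · have : ⊤ ≤ comap (p.Rl γ).mkQ (Z ⊔ span O {(p.Rl γ).mkQ (m' 1)}) := by
      have le : comap (p.Rl γ).mkQ Z ≤ comap (p.Rl γ).mkQ (Z ⊔ span O {(p.Rl γ).mkQ (m' 1)}) :=
        comap_mono le_sup_left
      rw [← gen]
      refine sup_le (hUs.trans le) (span_le.2 ?_)
      rintro _ (rfl | ⟨y, i, rfl⟩)
      · exact le (subset_span (.inl rfl))
      by_cases e : y = x
      · subst e
        have hM : IsUnit (Uᵀ * E).det := by rw [det_mul, det_transpose]; exact hU.mul hE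
        rw [← nonsing_inv_mul_cancel_left _ (p.m y) hM, ← hm', mul_apply_eq_vecMul, vecMul_eq_sum,
          Fin.sum_univ_two]
        exact add_mem (smul_mem _ _ (le h0))
          (smul_mem _ _ (mem_sup_right (mem_span_singleton_self _)))
      · obtain ⟨Q, hQ⟩ := hy y e
        obtain ⟨F, hF, hF'⟩ := ap y
        have := row_mem hR hu (sp y) hF' ((F⁻¹ * Qᵀ) i)
        rw [← mul_apply_eq_vecMul, Matrix.mul_assoc (γ.N y)ᵀ, Matrix.mul_assoc F⁻¹,
          ← Matrix.mul_assoc Qᵀ, ← transpose_mul, hQ, transpose_one, Matrix.one_mul,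
          nonsing_inv_mul_cancel_left _ _ hF] at this
        exact le this
    refine eq_top_iff.2 fun z _ => ?_
    obtain ⟨z, rfl⟩ := (p.Rl γ).mkQ_surjective z
    exact this trivial
  · rw [← map_smul]
    exact h1
  · rw [mul_apply_eq_vecMul, vecMul_eq_sum]
    exact hUs (sum_mem fun k _ => smul_mem _ _ (lu k))
  · rw [← map_smul, ← hw, mkQ_apply, Quotient.mk_eq_zero, vecMul_eq_sum]
    exact sum_mem fun k _ => smul_mem _ _ (subset_span ⟨.inr (x, k), rfl⟩)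
  · obtain ⟨c, hc⟩ := mem_span_singleton.1 ha
    rw [← map_smul, ← map_smul, mkQ_apply, mkQ_apply, Submodule.Quotient.eq] at hc
    obtain ⟨v, hv⟩ := (mem_span_range_iff_exists_fun O (v := fun i => p.Rm γ i)).1 hc
    have := inj (a • ex w - b • Sum.elim (-v) fun o => o.elim c fun _ => 0) (by
      rw [sub_vecMul, smul_vecMul, smul_vecMul, hex, hw, smul_comm, ← smul_sub]
      refine smul_eq_zero_of_right _ ?_
      rw [vecMul_eq_sum, Fintype.sum_sum_type, Fintype.sum_option]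
      simp only [Sum.elim_inl, Sum.elim_inr, Option.elim_none, Option.elim_some, zero_smul,
        Finset.sum_const_zero, Pi.neg_apply, neg_smul, Finset.sum_neg_distrib, add_zero]
      change _ - (-∑ i, v i • p.Rm γ i + c • p.t) = 0
      rw [hv]
      abel)
    have := congrFun this (.inl (.inr (x, i)))
    simp [ex] at this
    exact ⟨-v (.inr (x, i)), by linear_combination this⟩

end Vale.Agent.P004F.Kg.Cb
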